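import Vale.Agent.P031.Main

/-!
# P031, Q2: the only possible limit of V(cx)/V(x) is c

`V x` counts the distinct values `v ≤ x` of Euler's totient function.  For every fixed `c > 1`:
there are arbitrarily large `x` with `V (c x) < c' V x` (for every `c' > c`), there are arbitrarily
large `x` with `V (c x) > c'' V x` (for every `c'' < c`), and hence if `V (c x) / V x` has a limit
as `x` tends to infinity, then the limit is `c`.
-/

namespace Vale.Agent.Results.P031.RatioLimit

open Filter Topology Vale.Agent.P031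

theorem result (c : ℝ) (hc : 1 < c) :
    (∀ c' : ℝ, c < c' → ∀ x0 : ℝ, ∃ x : ℝ, x0 ≤ x ∧ (V (c * x) : ℝ) < c' * V x) ∧
    (∀ c'' : ℝ, c'' < c → ∀ x0 : ℝ, ∃ x : ℝ, x0 ≤ x ∧ c'' * V x < V (c * x)) ∧
    (∀ L : ℝ, Tendsto (fun x : ℝ => (V (c * x) : ℝ) / V x) atTop (𝓝 L) → L = c) :=
  ⟨fun c' h x0 => upper c hc c' h x0, fun c'' h x0 => lower c hc c'' h x0,
    fun L h => limit_eq c hc L h⟩

end Vale.Agent.Results.P031.RatioLimit
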